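import Vale.Agent.P269.G1I.All
import Vale.Agent.P269.G2I.BSpec1
import Vale.Agent.P269.G2I.Model1
import Vale.Agent.P269.G2I.Model2
import Vale.Agent.P269.G2I.T.H980_GString
import Vale.Agent.P269.G2I.T.H984_SBEuler

set_option autoImplicit false

/-!
# [Z4] the Euler field and the operators `S_n` on the full small phase space
-/

namespace Vale.Agent.P269.G2.H937

open Vale.Agent.P269.CI Vale.Agent.P269.G2
open Vale.Agent.P269.G1 (kk)

variable {X : CompleteIntersection} {F : ℕ → ℕ → List (Ins X) → ℂ}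

/-- constants as a ring homomorphism -/
noncomputable def cR (n : ℕ) : ℂ →+* RB n := (MvPowerSeries.C (σ := Fin n)).comp PowerSeries.C

theorem cb_eq (n : ℕ) (c : ℂ) : cb n c = cR n c := rfl

theorem wB_succ (i : Fin (nx X)) (j : ℕ) : wB (E0 X) F i (j + 1) = 0 := by
  funext c
  change (if j + 1 ≤ 0 then _ else (0 : RB (nx X))) = 0
  rw [if_neg (Nat.not_succ_le_zero j)]

theorem wB_zero (i : Fin (nx X)) (c : Ix X) : wB (E0 X) F i 0 c =
    if i = (E0 X).i0 c then 1 else 0 := by
  unfold wB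
  rw [if_pos (Nat.zero_le _)]
  change (1 : OB X (nx X)) c ((Fintype.equivFin (Ix X)).symm i) = _
  rw [Matrix.one_apply]
  by_cases h : i = (E0 X).i0 c
  · subst h
    rw [if_pos rfl, if_pos]
    exact ((Fintype.equivFin (Ix X)).symm_apply_apply c).symm
  · rw [if_neg h, if_neg]
    intro h2
    apply h
    rw [h2]
    exact ((Fintype.equivFin (Ix X)).apply_symm_apply i).symm

/-- **[Z4]** `g_1 = 1`, `g_2 = 0` on the small phase space -/
theorem gB_one (hF : IsGW X F) (he : Even X.dim) :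
    gB (E0 X) F 1 = (1 : AM hF he) := by
  funext c
  change (if 1 ≤ 1 then (1 : OB X (nx X)) c (one X) else 0) -
    ∑ i, MvPowerSeries.X i * wB (E0 X) F i (0 + 1) c = if c = one X then 1 else 0
  rw [if_pos le_rfl, Matrix.one_apply, Finset.sum_eq_zero, sub_zero]
  intro i _
  rw [wB_succ, Pi.zero_apply, mul_zero]

/-- **[Z4]** -/
theorem gB_two : gB (E0 X) F 2 = 0 := by
  funext c
  change (if 2 ≤ 1 then _ else 0) -
    ∑ i, MvPowerSeries.X i * wB (E0 X) F i (1 + 1) c = (0 : RB (nx X))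
  rw [if_neg (by norm_num), Finset.sum_eq_zero, sub_zero]
  intro i _
  rw [wB_succ, Pi.zero_apply, mul_zero]

theorem actB_eB {n : ℕ} (M : OB X n) (b c : Ix X) : actB X n M (eB X n b) c = M c b := by
  change (M.mulVec (Pi.single b 1)) c = M c b
  rw [Matrix.mulVec_single_one]
  rfl

theorem SB_one_one (hF : IsGW X F) (he : Even X.dim) (c : Ix X) :
    SB (E0 X) F 1 c (one X) = MvPowerSeries.X ((E0 X).i0 c) := by
  have hg := congrFun (g_zero (E0 X) hF he) c
  change (if 0 ≤ 1 then SB (E0 X) F 1 c (one X) else 0) -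
    ∑ i, MvPowerSeries.X i * wB (E0 X) F i 0 c = 0 at hg
  rw [if_pos zero_le_one, sub_eq_zero] at hg
  rw [hg, Finset.sum_eq_single ((E0 X).i0 c)]
  · rw [wB_zero, if_pos rfl, mul_one]
  · intro i _ hi
    rw [wB_zero, if_neg hi, mul_zero]
  · simp

theorem c1_one (c : Ix X) : cR (nx X) (c1 X (one X) c) =
    if c = hcls X then ((index X : ℤ) : RM X) else 0 := by
  have h : hmul X (one X) c = if c = hcls X then 1 else 0 := by
    rcases c with j | v
    · change (if (j : ℕ) = 0 + 1 then (1 : ℂ) else 0) = _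
      by_cases hj : (j : ℕ) = 1
      · rw [if_pos hj, if_pos]
        unfold hcls
        exact congrArg Sum.inl (Fin.ext hj)
      · rw [if_neg hj, if_neg]
        intro h2
        apply hj
        unfold hcls at h2
        have h3 := Sum.inl.inj h2
        rw [h3]
    · change (0 : ℂ) = _
      rw [if_neg]
      intro h2
      unfold hcls at h2
      cases h2
  unfold c1
  rw [h, map_mul, map_intCast]
  split_ifs
  · rw [map_one, mul_one]
  · rw [map_zero, mul_zero]

/-- **[Z4]** from `g_zero` -/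
theorem calE_eq (hF : IsGW X F) (he : Even X.dim) : calE (E0 X) F = EM hF he := by
  funext c
  have hA : actB X (nx X) (SB (E0 X) F 1 * muc X (nx X) (3 / 2) + RBcl X (nx X))
      (eB X (nx X) (one X)) c = MvPowerSeries.X ((E0 X).i0 c) *
        cR (nx X) (3 / 2 + mu X (one X)) + cR (nx X) (c1 X (one X) c) := by
    rw [actB_eB, Matrix.add_apply, muc, Matrix.mul_diagonal, SB_one_one hF he]
    rfl
  have hB : ∀ i : Fin (nx X), ((MvPowerSeries.X i : RB (nx X)) •
      (actB X (nx X) (SB (E0 X) F ((E0 X).e i).2 * muc X (nx X) (((E0 X).e i).2 + 1 / 2))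
        (eB X (nx X) ((E0 X).e i).1) +
      if ((E0 X).e i).2 = 0 then 0 else
        actB X (nx X) (SB (E0 X) F (((E0 X).e i).2 - 1) * RBcl X (nx X))
          (eB X (nx X) ((E0 X).e i).1))) c =
      if i = (E0 X).i0 c then MvPowerSeries.X i * cR (nx X) (1 / 2 + mu X c) else 0 := by
    intro i
    have h2 : ((E0 X).e i).2 = 0 := rfl
    rw [if_pos h2, add_zero, Pi.smul_apply, actB_eB, muc, Matrix.mul_diagonal, h2]
    change MvPowerSeries.X i * ((1 : OB X (nx X)) c ((Fintype.equivFin (Ix X)).symm i) * _) = _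
    rw [Matrix.one_apply]
    by_cases h : i = (E0 X).i0 c
    · subst h
      have h3 : (Fintype.equivFin (Ix X)).symm ((E0 X).i0 c) = c :=
        (Fintype.equivFin (Ix X)).symm_apply_apply c
      have h4 : ((E0 X).e ((E0 X).i0 c)).1 = c := h3
      rw [if_pos rfl, h3, if_pos rfl, one_mul, h4, cb_eq, Nat.cast_zero, zero_add]
    · rw [if_neg h, if_neg, zero_mul, mul_zero]
      intro h2
      apply h
      rw [h2]
      exact ((Fintype.equivFin (Ix X)).apply_symm_apply i).symm
  have hC : (∑ i, (MvPowerSeries.X i : RB (nx X)) •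
      (actB X (nx X) (SB (E0 X) F ((E0 X).e i).2 * muc X (nx X) (((E0 X).e i).2 + 1 / 2))
        (eB X (nx X) ((E0 X).e i).1) +
      if ((E0 X).e i).2 = 0 then 0 else
        actB X (nx X) (SB (E0 X) F (((E0 X).e i).2 - 1) * RBcl X (nx X))
          (eB X (nx X) ((E0 X).e i).1))) c =
      MvPowerSeries.X ((E0 X).i0 c) * cR (nx X) (1 / 2 + mu X c) := by
    rw [Finset.sum_apply, Finset.sum_congr rfl fun i _ => hB i]
    simp
  change actB X (nx X) (SB (E0 X) F 1 * muc X (nx X) (3 / 2) + RBcl X (nx X))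
      (eB X (nx X) (one X)) c - (∑ i, (MvPowerSeries.X i : RB (nx X)) •
      (actB X (nx X) (SB (E0 X) F ((E0 X).e i).2 * muc X (nx X) (((E0 X).e i).2 + 1 / 2))
        (eB X (nx X) ((E0 X).e i).1) +
      if ((E0 X).e i).2 = 0 then 0 else
        actB X (nx X) (SB (E0 X) F (((E0 X).e i).2 - 1) * RBcl X (nx X))
          (eB X (nx X) ((E0 X).e i).1))) c =
    (1 - ((hp X c : ℕ) : RM X)) * MvPowerSeries.X ((E0 X).i0 c) +
    if c = hcls X then ((index X : ℤ) : RM X) else 0
  rw [hA, hC, c1_one]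
  have h1 : cR (nx X) (3 / 2 + mu X (one X)) - cR (nx X) (1 / 2 + mu X c) =
      1 - ((hp X c : ℕ) : RM X) := by
    rw [← map_sub]
    have h2 : 3 / 2 + mu X (one X) - (1 / 2 + mu X c) = 1 - ((hp X c : ℕ) : ℂ) := by
      have h0 : (hp X (one X) : ℂ) = 0 := by
        change (((0 : Fin (X.dim + 1)) : ℕ) : ℂ) = 0
        simp
      simp only [mu]
      rw [h0]
      ring
    rw [h2, map_sub, map_one, map_natCast]
  rw [← h1]
  ring

/-- **[Z4]** from `g_zero` or `CB_U` -/
theorem UB_eq (hF : IsGW X F) (he : Even X.dim) :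
    UB (E0 X) F = QA.mat _ (EM hF he) := by
  have h := SB_euler (E0 X) hF he 0
  have h0 : SB (E0 X) F 0 = 1 := rfl
  rw [h0, calE_eq hF he, mul_one, one_mul, Nat.cast_zero, zero_add, one_smul, zero_add] at h
  exact h.symm

theorem kk_mul {n : ℕ} (q : ℚ) (a : OB X n) : (kk (RB n) q : OB X n) * a = q • a := by
  unfold kk
  rw [Algebra.algebraMap_eq_smul_one, smul_mul_assoc, one_mul, algebraMap_smul]

theorem SZ_nat (k : ℕ) : SZ F (k : ℤ) = SB (E0 X) F k := by
  unfold SZ
  rw [if_neg (by omega), Int.toNat_natCast]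

theorem SZ_neg (n : ℤ) (hn : n < 0) : SZ F n = (0 : OB X (nx X)) := by
  unfold SZ
  rw [if_pos hn]

variable (hF : IsGW X F) (he : Even X.dim)

/-- **[Z4]** from `SB_euler` and `calE_eq` -/
theorem SZ_euler (n : ℤ) : QA.mat _ (EM hF he) * SZ F (n - 1) =
    kk (RM X) n * SZ F n + SZ F n * muB X (nx X) -
      muB X (nx X) * SZ F n + SZ F (n - 1) * RBcl X (nx X) := by
  rcases lt_trichotomy n 0 with hn | hn | hn
  · rw [SZ_neg n hn, SZ_neg (n - 1) (by omega)]
    simp
  · subst hn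
    rw [SZ_neg (0 - 1) (by omega)]
    have h0 : SZ F 0 = (1 : OB X (nx X)) := rfl
    rw [h0, kk_mul]
    simp
  · obtain ⟨k, rfl⟩ : ∃ k : ℕ, n = ((k + 1 : ℕ) : ℤ) := ⟨(n - 1).toNat, by omega⟩
    have h3 : (((k + 1 : ℕ) : ℤ) - 1) = (k : ℤ) := by omega
    have h := SB_euler (E0 X) hF he k
    rw [calE_eq hF he] at h
    rw [kk_mul, h3, SZ_nat, SZ_nat]
    have h4 : ((((k + 1 : ℕ) : ℤ)) : ℚ) = (k : ℚ) + 1 := by push_cast; ring
    rw [h4]
    exact h

end Vale.Agent.P269.G2.H937
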